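import Vale.Agent.P134.H88.SD2
import Vale.Agent.P134.LI.Fct

/-! P134, package R3, S-D3: `StSD2 + StHar1 + StCut + StGw → StSLAB` (absorption). -/

set_option linter.all false

namespace Vale.Agent.P134.H202.SD3

open Vale.Agent.P134 Vale.Agent.P134.SM Vale.Agent.P134.LI MeasureTheory Filter Topology
open Vale.Agent.P134.H88

variable {CX s3 δ W lam C1 cp CH κ cf : ℝ} {u : R3 → ℝ} {B : Set R3} {η : R3 → ℝ}
  {w : ℝ → ℝ} {χ om : R3 → ℝ}

lemma sig0_pos : 0 < sig0 := by unfold sig0; positivity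

lemma meas_iF (B : Set R3) (a : ℝ) : Measurable (iF B a) := by
  unfold iF
  exact Measurable.ite (Fct.measurableSet_far B a) measurable_const measurable_const

lemma meas_iA (B : Set R3) (a b : ℝ) : Measurable (iA B a b) := by
  unfold iA
  exact Measurable.ite ((Fct.measurableSet_far B a).inter (Fct.measurableSet_not_far B b))
    measurable_const measurable_const

lemma intg (hGi : Integrable fun x => Gw lam x ^ 2) {h : R3 → ℝ} (M : ℝ)
    (hm : Measurable h) (hM : ∀ x, |h x| ≤ M * Gw lam x ^ 2) : Integrable h :=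
  Integrable.mono' (hGi.const_mul M) hm.aestronglyMeasurable (Eventually.of_forall fun x => by
    rw [Real.norm_eq_abs]; exact hM x)

/-- the weight `w(φ)|∇φ|`. -/
noncomputable def PP (w : ℝ → ℝ) (u : R3 → ℝ) (x : R3) : ℝ := w (phi u x) * rr u x

section
variable (D : SDat CX s3 δ W lam C1 u B η w χ om)
include D

lemma PP0 (x : R3) : 0 ≤ PP w u x := mul_nonneg (D.wb _).1 (H147.rr_nonneg u x)
lemma PP1 (x : R3) : PP w u x ≤ 1 :=
  mul_le_one₀ (D.wb _).2 (H147.rr_nonneg u x) (H147.rr_le_one D.hs.toSol D.hs.lt x)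
lemma PPs {x : R3} (h : s3 ≤ |phi u x|) : PP w u x = 0 := by
  unfold PP; rw [D.ws _ h]; ring
lemma PPm : Measurable (PP w u) :=
  (D.wc.measurable.comp (H147.phi_contDiff D.hs.toSol D.hs.lt 0).continuous.measurable).mul
    (meas_rr u)

lemma q0 (x : R3) : 0 ≤ qq u x := H147.qq_nonneg D.hs.toSol D.hs.lt x
lemma ffm : Measurable (ff u) := (ff_contDiff D.hs.toSol 0).continuous.measurable
lemma f0 (x : R3) : 0 < ff u x := H147.ff_pos D.hs.lt x
lemma f1 (x : R3) : ff u x ≤ 1 := by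
  refine (H147.ff_le u x).trans ?_
  rw [div_le_one H147.r2_pos]; exact H147.r2_one_le
lemma f3q (x : R3) : 0 ≤ ff u x ^ 3 * qq u x ∧ ff u x ^ 3 * qq u x ≤ 1 := by
  refine ⟨mul_nonneg (pow_nonneg (f0 D x).le 3) (q0 D x), ?_⟩
  exact mul_le_one₀ (pow_le_one₀ (f0 D x).le (f1 D x)) (q0 D x) (H147.qq_le_one u x)

lemma Esq (hG : ∀ x, 0 < Gw lam x) (x : R3) : (η x * om x) ^ 2 ≤ η x ^ 2 := by
  have e0 := D.etab x
  have o0 := D.omb x
  have : η x * om x ≤ η x * 1 := mul_le_mul_of_nonneg_left o0.2 e0.1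
  exact pow_le_pow_left₀ (mul_nonneg e0.1 o0.1) (by linarith) 2
lemma etasq (hG : ∀ x, 0 < Gw lam x) (x : R3) : η x ^ 2 ≤ Gw lam x ^ 2 :=
  pow_le_pow_left₀ (D.etab x).1 (D.etab x).2 2

/-- (A) and (B), pointwise. -/
lemma ptA (hG : ∀ x, 0 < Gw lam x) (hcf : 0 < cf) (hf : ∀ x, |phi u x| ≤ s3 → cf ≤ ff u x ^ 3)
    (x : R3) : PP w u x * (η x * om x) ^ 2 * qq u x
      ≤ PP w u x * (η x * om x) ^ 2 * qq u x * χ x
        + cf⁻¹ * ((1 - χ x) * (Gw lam x ^ 2 * ff u x ^ 3 * qq u x)) := by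
  have h1 : PP w u x * (η x * om x) ^ 2 * qq u x * (1 - χ x)
      ≤ cf⁻¹ * ((1 - χ x) * (Gw lam x ^ 2 * ff u x ^ 3 * qq u x)) := by
    have c0 := D.chib x
    have hq := q0 D x
    by_cases hs : s3 ≤ |phi u x|
    · rw [PPs D hs]
      have : 0 ≤ cf⁻¹ * ((1 - χ x) * (Gw lam x ^ 2 * ff u x ^ 3 * qq u x)) := by
        have := f0 D x
        have h2 : 0 ≤ 1 - χ x := by linarith
        positivity
      linarith
    push Not at hs
    have hf' := hf x hs.le
    have h2 : (η x * om x) ^ 2 ≤ Gw lam x ^ 2 := (Esq D hG x).trans (etasq D hG x)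
    have h3 : PP w u x * (η x * om x) ^ 2 ≤ 1 * Gw lam x ^ 2 :=
      mul_le_mul (PP1 D x) h2 (sq_nonneg _) one_pos.le
    have h4 : 1 ≤ cf⁻¹ * ff u x ^ 3 := by
      rw [inv_mul_eq_div, le_div_iff₀ hcf]; linarith
    have h5 : 0 ≤ qq u x * (1 - χ x) := mul_nonneg hq (by linarith)
    calc PP w u x * (η x * om x) ^ 2 * qq u x * (1 - χ x)
        = PP w u x * (η x * om x) ^ 2 * (qq u x * (1 - χ x)) := by ring
      _ ≤ 1 * Gw lam x ^ 2 * (qq u x * (1 - χ x)) := mul_le_mul_of_nonneg_right h3 h5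
      _ = Gw lam x ^ 2 * (qq u x * (1 - χ x)) * 1 := by ring
      _ ≤ Gw lam x ^ 2 * (qq u x * (1 - χ x)) * (cf⁻¹ * ff u x ^ 3) :=
          mul_le_mul_of_nonneg_left h4 (mul_nonneg (sq_nonneg _) h5)
      _ = _ := by ring
  nlinarith [h1]

lemma ptB (hW : 0 < W) (x : R3) : iA B (W / 2) (3 * W) x *
    (PP w u x * qq u x * Gw lam x ^ 2) ≤ PP w u x * (η x * om x) ^ 2 * qq u x := by
  have hr : 0 ≤ PP w u x * (η x * om x) ^ 2 * qq u x :=
    mul_nonneg (mul_nonneg (PP0 D x) (sq_nonneg _)) (q0 D x)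
  by_cases h : Far B (W / 2) x ∧ ¬ Far B (3 * W) x
  swap
  · have : iA B (W / 2) (3 * W) x = 0 := by unfold iA; rw [if_neg h]
    rw [this]; linarith
  have : iA B (W / 2) (3 * W) x = 1 := by unfold iA; rw [if_pos h]
  rw [this]
  by_cases hs : s3 ≤ |phi u x|
  · rw [PPs D hs]; simp
  push Not at hs
  have h4 : ¬ Far B (4 * W) x := fun h4 => h.2 (Fct.far_mono h4 (by linarith))
  rw [D.om1 x h.1, D.etaG x h4 hs.le]
  apply le_of_eq; ring

lemma ptC (hG : ∀ x, 0 < Gw lam x) (hδ : δ ≤ 1 / 2) (hcp : 0 < cp) (hW : 0 < W) (hCH0 : 0 < CH)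
    (hδ' : sig0 * CH ^ 2 * δ ≤ cp)
    (hH : ∀ x, |phi u x| ≤ s3 → qq u x ≤ 1 / 2 → |hh u x| ≤ CH * qq u x ∧ a2 u x ≤ CH * qq u x)
    (x : R3) :
    sig0 * (iF B (2 * W) x * (PP w u x * η x ^ 2 *
        ((a2 u x - hh u x ^ 2) / 2 + cp / (2 * sig0) * qq u x)))
      + cp / 4 * (PP w u x * (η x * om x) ^ 2 * qq u x * χ x)
    ≤ PP w u x * (η x * om x) ^ 2 * (χ x * (cp * qq u x - sig0 * kk u x)) := by
  have hs0 := sig0_pos
  have hq := q0 D x
  have hP := PP0 D x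
  by_cases hs : s3 ≤ |phi u x|
  · rw [PPs D hs]; simp
  push Not at hs
  by_cases h : Far B (2 * W) x
  · have e1 : iF B (2 * W) x = 1 := by unfold iF; rw [if_pos h]
    rw [e1, D.chi1 x (Fct.far_mono h (by linarith)), D.om1 x (Fct.far_mono h (by linarith))]
    have e2 : sig0 * (cp / (2 * sig0)) = cp / 2 := by field_simp
    have e3 : sig0 * (1 * (PP w u x * η x ^ 2 *
        ((a2 u x - hh u x ^ 2) / 2 + cp / (2 * sig0) * qq u x)))
        = PP w u x * η x ^ 2 * (- sig0 * kk u x + cp / 2 * qq u x) := by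
      rw [← e2]; unfold kk; ring
    rw [e3]
    have h5 : 0 ≤ PP w u x * η x ^ 2 * (cp * qq u x) := by positivity
    nlinarith [h5]
  · have e1 : iF B (2 * W) x = 0 := by unfold iF; rw [if_neg h]
    rw [e1]
    by_cases hfar : Far B (W / 4) x
    swap
    · rw [D.om0 x hfar]; simp
    have hqδ := D.good x (by linarith) hfar
    obtain ⟨hh1, -⟩ := hH x hs.le (hqδ.trans hδ)
    have ha0 : 0 ≤ a2 u x := by
      unfold a2; exact Finset.sum_nonneg fun i _ => Finset.sum_nonneg fun j _ => sq_nonneg _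
    have h6 : hh u x ^ 2 ≤ CH ^ 2 * δ * qq u x := by
      calc hh u x ^ 2 = |hh u x| ^ 2 := (sq_abs _).symm
        _ ≤ (CH * qq u x) ^ 2 := pow_le_pow_left₀ (abs_nonneg _) hh1 2
        _ = CH ^ 2 * qq u x * qq u x := by ring
        _ ≤ CH ^ 2 * δ * qq u x := by gcongr
    have h7 : sig0 * kk u x ≤ cp / 2 * qq u x := by
      have e2 : kk u x ≤ hh u x ^ 2 / 2 := by unfold kk; linarith
      calc sig0 * kk u x ≤ sig0 * (CH ^ 2 * δ * qq u x / 2) := by
            apply mul_le_mul_of_nonneg_left _ hs0.le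
            linarith
        _ = (sig0 * CH ^ 2 * δ) * qq u x / 2 := by ring
        _ ≤ cp * qq u x / 2 := by gcongr
        _ = _ := by ring
    have h8 : cp / 2 * qq u x ≤ cp * qq u x - sig0 * kk u x := by linarith
    have h9 : 0 ≤ PP w u x * (η x * om x) ^ 2 * χ x :=
      mul_nonneg (mul_nonneg hP (sq_nonneg _)) (D.chib x).1
    have h10 : cp / 4 * (PP w u x * (η x * om x) ^ 2 * qq u x * χ x)
        ≤ PP w u x * (η x * om x) ^ 2 * χ x * (cp / 2 * qq u x) := by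
      have h11 : 0 ≤ PP w u x * (η x * om x) ^ 2 * χ x * (cp * qq u x) :=
        mul_nonneg h9 (by positivity)
      nlinarith [h11]
    have h12 := mul_le_mul_of_nonneg_left h8 h9
    nlinarith [h10, h12]

/-- the integrals at fixed data. -/
theorem core (hG : ∀ x, 0 < Gw lam x) (hGm : Measurable (Gw lam))
    (hGi : Integrable fun x => Gw lam x ^ 2)
    (hcf : 0 < cf) (hf : ∀ x, |phi u x| ≤ s3 → cf ≤ ff u x ^ 3)
    (hδ : δ ≤ 1 / 2) (hcp : 0 < cp) (hW : 0 < W) (hCH0 : 0 < CH)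
    (hδ' : sig0 * CH ^ 2 * δ ≤ cp)
    (hH : ∀ x, |phi u x| ≤ s3 → qq u x ≤ 1 / 2 → |hh u x| ≤ CH * qq u x ∧ a2 u x ≤ CH * qq u x) :
    (sig0 * (∫ x, iF B (2 * W) x * (PP w u x * η x ^ 2 *
        ((a2 u x - hh u x ^ 2) / 2 + cp / (2 * sig0) * qq u x)))
      + cp / 4 * (∫ x, PP w u x * (η x * om x) ^ 2 * qq u x * χ x)
      ≤ ∫ x, PP w u x * (η x * om x) ^ 2 * (χ x * (cp * qq u x - sig0 * kk u x)))
    ∧ (∫ x, PP w u x * (η x * om x) ^ 2 * (qq u x + κ ^ 2)
      ≤ (∫ x, PP w u x * (η x * om x) ^ 2 * qq u x * χ x)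
        + cf⁻¹ * (∫ x, (1 - χ x) * (Gw lam x ^ 2 * ff u x ^ 3 * qq u x))
        + κ ^ 2 * ∫ x, PP w u x * η x ^ 2)
    ∧ (∫ x, iA B (W / 2) (3 * W) x * (PP w u x * qq u x * Gw lam x ^ 2)
      ≤ (∫ x, PP w u x * (η x * om x) ^ 2 * qq u x * χ x)
        + cf⁻¹ * (∫ x, (1 - χ x) * (Gw lam x ^ 2 * ff u x ^ 3 * qq u x)))
    ∧ 0 ≤ (∫ x, PP w u x * (η x * om x) ^ 2 * qq u x * χ x)
    ∧ 0 ≤ (∫ x, PP w u x * η x ^ 2)
    ∧ Integrable (fun x => (1 - χ x) * (Gw lam x ^ 2 * ff u x ^ 3 * qq u x))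
    ∧ ∀ x, 0 ≤ (1 - χ x) * (Gw lam x ^ 2 * ff u x ^ 3 * qq u x) := by
  have hs0 := sig0_pos
  have hPm := PPm D
  have hηm := D.eta1.continuous.measurable
  have hom := D.om2.continuous.measurable
  have hχm := D.chi2.continuous.measurable
  have hEm : Measurable fun x => (η x * om x) ^ 2 := (hηm.mul hom).pow_const 2
  have hqm := meas_qq u
  have hE1 : ∀ x, (η x * om x) ^ 2 ≤ Gw lam x ^ 2 := fun x => (Esq D hG x).trans (etasq D hG x)
  have hPE : ∀ x, |PP w u x * (η x * om x) ^ 2| ≤ Gw lam x ^ 2 := fun x => by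
    rw [abs_of_nonneg (mul_nonneg (PP0 D x) (sq_nonneg _))]
    calc PP w u x * (η x * om x) ^ 2 ≤ 1 * Gw lam x ^ 2 :=
          mul_le_mul (PP1 D x) (hE1 x) (sq_nonneg _) one_pos.le
      _ = _ := one_mul _
  have hPη : ∀ x, |PP w u x * η x ^ 2| ≤ Gw lam x ^ 2 := fun x => by
    rw [abs_of_nonneg (mul_nonneg (PP0 D x) (sq_nonneg _))]
    calc PP w u x * η x ^ 2 ≤ 1 * Gw lam x ^ 2 :=
          mul_le_mul (PP1 D x) (etasq D hG x) (sq_nonneg _) one_pos.le
      _ = _ := one_mul _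
  have mulb : ∀ (a b M : ℝ) (x : R3), |a| ≤ Gw lam x ^ 2 → |b| ≤ M → |a * b| ≤ M * Gw lam x ^ 2 := by
    intro a b M x h1 h2
    rw [abs_mul, mul_comm M]
    exact mul_le_mul h1 h2 (abs_nonneg _) (sq_nonneg _)
  have hqa : ∀ x, |qq u x| ≤ 1 := fun x => by
    rw [abs_of_nonneg (q0 D x)]; exact H147.qq_le_one u x
  have hχa : ∀ x, |χ x| ≤ 1 := fun x => by
    rw [abs_of_nonneg (D.chib x).1]; exact (D.chib x).2
  -- bound for the curvature terms at good points
  have hab : ∀ x, |phi u x| < s3 → Far B (W / 4) x → hh u x ^ 2 ≤ CH ^ 2 ∧ 0 ≤ a2 u x ∧ a2 u x ≤ CH := by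
    intro x hs hfar
    have hqδ := (D.good x (by linarith) hfar).trans hδ
    obtain ⟨h1, h2⟩ := hH x hs.le hqδ
    have h3 := H147.qq_le_one u x
    have h4 := q0 D x
    have e2 : |hh u x| ≤ CH := by nlinarith
    refine ⟨?_, ?_, by nlinarith⟩
    · calc hh u x ^ 2 = |hh u x| ^ 2 := (sq_abs _).symm
        _ ≤ CH ^ 2 := by gcongr
    · unfold a2; exact Finset.sum_nonneg fun i _ => Finset.sum_nonneg fun j _ => sq_nonneg _
  -- integrability
  have i1 : Integrable (fun x => (1 - χ x) * (Gw lam x ^ 2 * ff u x ^ 3 * qq u x)) := by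
    refine intg hGi 1 ((measurable_const.sub hχm).mul
      (((hGm.pow_const 2).mul ((ffm D).pow_const 3)).mul hqm)) fun x => ?_
    have h6 : (1 - χ x) * (Gw lam x ^ 2 * ff u x ^ 3 * qq u x)
        = Gw lam x ^ 2 * ((1 - χ x) * (ff u x ^ 3 * qq u x)) := by ring
    have h3 := f3q D x
    have h2 := D.chib x
    rw [h6]
    refine mulb _ _ _ x (by rw [abs_of_nonneg (sq_nonneg _)]) ?_
    rw [abs_of_nonneg (mul_nonneg (by linarith) h3.1)]
    exact mul_le_one₀ (by linarith) h3.1 h3.2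
  have i2 : Integrable (fun x => PP w u x * (η x * om x) ^ 2 * qq u x * χ x) := by
    refine intg hGi 1 (((hPm.mul hEm).mul hqm).mul hχm) fun x => ?_
    rw [mul_assoc (_ * _)]
    refine mulb _ _ _ x (hPE x) ?_
    rw [abs_mul]
    exact mul_le_one₀ (hqa x) (abs_nonneg _) (hχa x)
  have i3 : Integrable (fun x => PP w u x * η x ^ 2) :=
    intg hGi 1 (hPm.mul (hηm.pow_const 2)) fun x => by rw [one_mul]; exact hPη x
  have i4 : Integrable (fun x => PP w u x * (η x * om x) ^ 2 * (qq u x + κ ^ 2)) := by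
    refine intg hGi (1 + κ ^ 2) ((hPm.mul hEm).mul (hqm.add_const _)) fun x => ?_
    refine mulb _ _ _ x (hPE x) ?_
    rw [abs_of_nonneg (by have := q0 D x; positivity)]
    have := H147.qq_le_one u x
    linarith
  have i5 : Integrable (fun x => iA B (W / 2) (3 * W) x * (PP w u x * qq u x * Gw lam x ^ 2)) := by
    refine intg hGi 1 ((meas_iA B _ _).mul ((hPm.mul hqm).mul (hGm.pow_const 2))) fun x => ?_
    have e : iA B (W / 2) (3 * W) x * (PP w u x * qq u x * Gw lam x ^ 2)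
        = Gw lam x ^ 2 * (iA B (W / 2) (3 * W) x * (PP w u x * qq u x)) := by ring
    rw [e]
    refine mulb _ _ _ x (by rw [abs_of_nonneg (sq_nonneg _)]) ?_
    have hi : |iA B (W / 2) (3 * W) x| ≤ 1 := by
      unfold iA; split_ifs <;> simp
    rw [abs_mul, abs_mul]
    refine mul_le_one₀ hi (by positivity) ?_
    refine mul_le_one₀ ?_ (abs_nonneg _) (hqa x)
    rw [abs_of_nonneg (PP0 D x)]; exact PP1 D x
  have i6 : Integrable (fun x => PP w u x * (η x * om x) ^ 2 *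
      (χ x * (cp * qq u x - sig0 * kk u x))) := by
    refine intg hGi (cp + sig0 * (CH ^ 2 + CH)) ((hPm.mul hEm).mul (hχm.mul
      ((hqm.const_mul cp).sub ((meas_kk u).const_mul sig0)))) fun x => ?_
    have hM0 : 0 ≤ (cp + sig0 * (CH ^ 2 + CH)) * Gw lam x ^ 2 := by positivity
    by_cases hs : s3 ≤ |phi u x|
    · rw [PPs D hs]; simpa using hM0
    push Not at hs
    by_cases hfar : Far B (W / 4) x
    swap
    · rw [D.om0 x hfar]; simpa using hM0
    obtain ⟨h1, h2, h3⟩ := hab x hs hfar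
    refine mulb _ _ _ x (hPE x) ?_
    have hkk : |kk u x| ≤ CH ^ 2 + CH := by
      unfold kk
      rw [abs_le]
      constructor
      · nlinarith [sq_nonneg (hh u x), sq_nonneg CH]
      · nlinarith [sq_nonneg (hh u x), sq_nonneg CH]
    rw [abs_mul]
    have e2 : |cp * qq u x - sig0 * kk u x| ≤ cp + sig0 * (CH ^ 2 + CH) := by
      calc |cp * qq u x - sig0 * kk u x| ≤ |cp * qq u x| + |sig0 * kk u x| := abs_sub _ _
        _ = cp * |qq u x| + sig0 * |kk u x| := by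
          rw [abs_mul, abs_mul, abs_of_pos hcp, abs_of_pos hs0]
        _ ≤ cp * 1 + sig0 * (CH ^ 2 + CH) := by gcongr; exact hqa x
        _ = _ := by ring
    calc |χ x| * |cp * qq u x - sig0 * kk u x| ≤ 1 * (cp + sig0 * (CH ^ 2 + CH)) :=
          mul_le_mul (hχa x) e2 (abs_nonneg _) one_pos.le
      _ = _ := one_mul _
  have i7 : Integrable (fun x => iF B (2 * W) x * (PP w u x * η x ^ 2 *
        ((a2 u x - hh u x ^ 2) / 2 + cp / (2 * sig0) * qq u x))) := by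
    refine intg hGi (CH ^ 2 + CH + cp / (2 * sig0)) ((meas_iF B _).mul
      ((hPm.mul (hηm.pow_const 2)).mul ((((meas_a2 u).sub ((meas_hh u).pow_const 2)).div_const 2).add
        (hqm.const_mul _)))) fun x => ?_
    have hM0 : 0 ≤ (CH ^ 2 + CH + cp / (2 * sig0)) * Gw lam x ^ 2 := by positivity
    by_cases hs : s3 ≤ |phi u x|
    · rw [PPs D hs]; simpa using hM0
    push Not at hs
    by_cases hfar : Far B (2 * W) x
    swap
    · have e1 : iF B (2 * W) x = 0 := by unfold iF; rw [if_neg hfar]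
      rw [e1]; simpa using hM0
    have e1 : iF B (2 * W) x = 1 := by unfold iF; rw [if_pos hfar]
    rw [e1, one_mul]
    obtain ⟨h1, h2, h3⟩ := hab x hs (Fct.far_mono hfar (by linarith))
    refine mulb _ _ _ x (hPη x) ?_
    have h4 := H147.qq_le_one u x
    have h5 := q0 D x
    have h6 : 0 ≤ cp / (2 * sig0) * qq u x := by positivity
    have h7 : cp / (2 * sig0) * qq u x ≤ cp / (2 * sig0) := mul_le_of_le_one_right (by positivity) h4
    rw [abs_le]
    constructor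
    · nlinarith [sq_nonneg (hh u x), sq_nonneg CH]
    · nlinarith [sq_nonneg (hh u x), sq_nonneg CH]
  refine ⟨?_, ?_, ?_, ?_, ?_, i1, ?_⟩
  · rw [← integral_const_mul, ← integral_const_mul,
      ← integral_add (i7.const_mul _) (i2.const_mul _)]
    exact integral_mono ((i7.const_mul _).add (i2.const_mul _)) i6
      (fun x => ptC D hG hδ hcp hW hCH0 hδ' hH x)
  · have i12 : Integrable (fun x => PP w u x * (η x * om x) ^ 2 * qq u x * χ x
        + cf⁻¹ * ((1 - χ x) * (Gw lam x ^ 2 * ff u x ^ 3 * qq u x))) := i2.add (i1.const_mul _)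
    rw [← integral_const_mul, ← integral_const_mul, ← integral_add i2 (i1.const_mul _),
      ← integral_add i12 (i3.const_mul _)]
    refine integral_mono i4 (i12.add (i3.const_mul _)) (fun x => ?_)
    have h1 := ptA D hG hcf hf x
    have h2 : κ ^ 2 * (PP w u x * (η x * om x) ^ 2) ≤ κ ^ 2 * (PP w u x * η x ^ 2) :=
      mul_le_mul_of_nonneg_left (mul_le_mul_of_nonneg_left (Esq D hG x) (PP0 D x)) (sq_nonneg _)
    simp only [Pi.add_apply]
    calc PP w u x * (η x * om x) ^ 2 * (qq u x + κ ^ 2)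
        = PP w u x * (η x * om x) ^ 2 * qq u x + κ ^ 2 * (PP w u x * (η x * om x) ^ 2) := by ring
      _ ≤ _ := add_le_add h1 h2
  · rw [← integral_const_mul, ← integral_add i2 (i1.const_mul _)]
    exact integral_mono i5 (i2.add (i1.const_mul _))
      (fun x => (ptB D hW x).trans (ptA D hG hcf hf x))
  · exact integral_nonneg fun x => mul_nonneg (mul_nonneg (mul_nonneg (PP0 D x) (sq_nonneg _))
      (q0 D x)) (D.chib x).1
  · exact integral_nonneg fun x => mul_nonneg (PP0 D x) (sq_nonneg _)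
  · intro x
    have := D.chib x
    have h1 := f0 D x
    have h2 := q0 D x
    have h3 : 0 ≤ 1 - χ x := by linarith
    positivity

end

/-! ### the choice of `W0` -/

lemma exists_W0 (C θ c : ℝ) (hC : 0 < C) (hθ : 0 < θ) (hc : 0 < c) (W1 : ℝ) :
    ∃ W0 : ℝ, 0 < W0 ∧ ∀ W : ℝ, W0 ≤ W → W1 ≤ W ∧ 5 ≤ W ∧ C / W ≤ θ ∧
      C / W * W ^ (1 / 4 : ℝ) ≤ θ ∧ C / W * W ^ (-50 : ℝ) ≤ c ∧ C * W ^ 4 * Real.exp (-W) ≤ c := by
  have t1 : Tendsto (fun W : ℝ => C / W) atTop (𝓝 0) := tendsto_const_nhds.div_atTop tendsto_id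
  have t2 : Tendsto (fun W : ℝ => C / W * W ^ (1 / 4 : ℝ)) atTop (𝓝 0) := by
    have h1 : Tendsto (fun W : ℝ => C * W ^ (-(3 / 4 : ℝ))) atTop (𝓝 (C * 0)) :=
      (tendsto_rpow_neg_atTop (by norm_num)).const_mul C
    rw [mul_zero] at h1
    refine h1.congr' ?_
    filter_upwards [eventually_gt_atTop 0] with W hW
    have h2 : W ^ (-(3 / 4 : ℝ)) = W ^ (1 / 4 : ℝ) / W := by
      rw [← Real.rpow_sub_one hW.ne']; norm_num
    rw [h2]; ring
  have t3 : Tendsto (fun W : ℝ => C / W * W ^ (-50 : ℝ)) atTop (𝓝 0) := by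
    have h1 := t1.mul (tendsto_rpow_neg_atTop (y := (50 : ℝ)) (by norm_num))
    simpa using h1
  have t4 : Tendsto (fun W : ℝ => C * W ^ 4 * Real.exp (-W)) atTop (𝓝 0) := by
    have h1 := (Real.tendsto_pow_mul_exp_neg_atTop_nhds_zero 4).const_mul C
    rw [mul_zero] at h1
    refine h1.congr fun W => ?_
    ring
  have hE : ∀ᶠ W : ℝ in atTop, W1 ≤ W ∧ 5 ≤ W ∧ C / W ≤ θ ∧
      C / W * W ^ (1 / 4 : ℝ) ≤ θ ∧ C / W * W ^ (-50 : ℝ) ≤ c ∧ C * W ^ 4 * Real.exp (-W) ≤ c := by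
    filter_upwards [eventually_ge_atTop W1, eventually_ge_atTop 5, t1.eventually_le_const hθ,
      t2.eventually_le_const hθ, t3.eventually_le_const hc, t4.eventually_le_const hc]
      with W a1 a2 a3 a4 a5 a6
    exact ⟨a1, a2, a3, a4, a5, a6⟩
  obtain ⟨a, ha⟩ := eventually_atTop.1 hE
  exact ⟨max a 1, by positivity, fun W hW => ha W ((le_max_left _ _).trans hW)⟩

/-- S-D3. -/
theorem slab_of (hGw : StGw) (hCut : StCut) (hH : StHar1) (h2 : StSD2) : StSLAB := by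
  intro CX ε s3 hCX hε hs3
  obtain ⟨C1, hC1, hcut⟩ := hCut
  obtain ⟨CH, hCH0, hCH⟩ := hH s3 hs3
  obtain ⟨δ0, cp, C, ε0, hδ0, hcp, hC, hε0, H⟩ := h2 CX s3 (min ε (1 / 2)) C1 hCX hs3
    (lt_min hε (by norm_num)) ((min_le_right _ _).trans_lt (by norm_num)) hC1
  have hs0 := sig0_pos
  -- lower bound of `f³`
  obtain ⟨cf, hcf⟩ : ∃ cf, cf = (1 / Real.sqrt 2 * Real.exp (-(Real.sqrt 2 * s3))) ^ 3 := ⟨_, rfl⟩
  have hcf0 : 0 < cf := by rw [hcf]; positivity
  have hf : ∀ u : R3 → ℝ, (∀ x, |u x| < 1) → ∀ x, |phi u x| ≤ s3 → cf ≤ ff u x ^ 3 := by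
    intro u hl x hx
    rw [← H147.g1_phi hl x, hcf]
    refine pow_le_pow_left₀ (by positivity) ?_ 3
    refine le_trans ?_ (H147.le_g1 _)
    gcongr
  -- the threshold for the absorbed terms
  obtain ⟨θ, hθ⟩ : ∃ θ, θ = min (min (cp / 4) (cf / 4)) 1 := ⟨_, rfl⟩
  have hθ0 : 0 < θ := by rw [hθ]; positivity
  have hθ1 : θ ≤ cp / 4 := by rw [hθ]; exact (min_le_left _ _).trans (min_le_left _ _)
  have hθ2 : θ ≤ cf / 4 := by rw [hθ]; exact (min_le_left _ _).trans (min_le_right _ _)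
  have hθ3 : θ ≤ 1 := by rw [hθ]; exact min_le_right _ _
  obtain ⟨δ1, W1, hδ1, hδ10, hW1, H⟩ := H (min ε0 (θ / (3 * C))) (by positivity) (min_le_left _ _)
  obtain ⟨e', he'⟩ : ∃ e', e' = min ε0 (θ / (3 * C)) := ⟨_, rfl⟩
  rw [← he'] at H
  have he1 : C * e' ≤ θ / 3 := by
    have : e' ≤ θ / (3 * C) := by rw [he']; exact min_le_right _ _
    calc C * e' ≤ C * (θ / (3 * C)) := mul_le_mul_of_nonneg_left this hC.le
      _ = θ / 3 := by field_simp
  refine ⟨min δ1 (min (1 / 2) (cp / (sig0 * CH ^ 2))), cp / (2 * sig0), by positivity,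
    by positivity, fun c1 hc1 => ?_⟩
  obtain ⟨W0, hW0, HW⟩ := exists_W0 C (θ / 3) (c1 / 10000) hC (by positivity) (by positivity) W1
  refine ⟨W0, hW0, fun W hW κ hκ => ?_⟩
  obtain ⟨hWW1, hW5, hWa, hWb, hWc, hWd⟩ := HW W hW
  have hWpos : 0 < W := by linarith
  obtain ⟨κ0, hκ0, H⟩ := H W hWW1
  obtain ⟨k', hk'⟩ : ∃ k', k' = min κ0 (min 1 κ) := ⟨_, rfl⟩
  have hk0 : 0 < k' := by rw [hk']; positivity
  have hk1 : k' ≤ 1 := by rw [hk']; exact (min_le_right _ _).trans (min_le_left _ _)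
  have hk2 : k' ≤ κ := by rw [hk']; exact (min_le_right _ _).trans (min_le_right _ _)
  have hk3 : k' ^ 2 ≤ κ := by nlinarith
  obtain ⟨lam1, hlam1, H⟩ := H k' hk0 (by rw [hk']; exact min_le_left _ _)
  refine ⟨min lam1 (min (1 / 100) (c1 / 10000 / (C * W ^ 4))), by positivity, ?_⟩
  intro u hu hyp B hB hgood hball lam hlam0 hlam η hη1 hηb hηM hηG w hwc hwb hws hw1
  have hl1 : lam ≤ lam1 := hlam.trans (min_le_left _ _)
  have hl2 : lam ≤ 1 / 100 := hlam.trans ((min_le_right _ _).trans (min_le_left _ _))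
  have hl3 : C * lam * W ^ 4 ≤ c1 / 10000 := by
    have h1 : lam ≤ c1 / 10000 / (C * W ^ 4) :=
      hlam.trans ((min_le_right _ _).trans (min_le_right _ _))
    rw [le_div_iff₀ (by positivity)] at h1
    linarith
  obtain ⟨χ, hχ2, hχb, hχ0, hχ1, hχd, hχdd⟩ := hcut B W hWpos
  obtain ⟨om, ho2, hob, ho0, ho1, hod, -⟩ := hcut B (W / 4) (by positivity)
  have D : ∀ δ : ℝ, min δ1 (min (1 / 2) (cp / (sig0 * CH ^ 2))) ≤ δ →
      SDat CX s3 δ W lam C1 u B η w χ om := fun δ hδ =>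
    { hs := hu, hyp := hyp, latt := hB
      good := fun x h1 h2 => (hgood x h1 h2).trans hδ
      lam0 := hlam0, eta1 := hη1, etab := hηb, etaM := hηM, etaG := hηG, wc := hwc
      wb := hwb, ws := hws, chi2 := hχ2, chib := hχb
      chi0 := fun x hx => hχ0 x fun h => hx (Fct.far_mono h (by linarith))
      chi1 := hχ1, chid := hχd, chidd := hχdd, om2 := ho2, omb := hob
      om0 := fun x hx => ho0 x fun h => hx (Fct.far_mono h (by linarith))
      om1 := fun x hx => ho1 x (Fct.far_mono hx (by linarith))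
      omd := fun x i => (hod x i).trans (le_of_eq (by field_simp)) }
  obtain ⟨hGcd, hG01, -, -, hGi, hGs, -, hGball⟩ := hGw lam hlam0 (by linarith)
  have hG : ∀ x, 0 < Gw lam x := fun x => (hG01 x).1
  have hGm : Measurable (Gw lam) := (hGcd 0).continuous.measurable
  have hl := hu.lt
  have hsol := hu.toSol
  -- inequality of S-D2
  have HI := H lam u B η w χ om hl1 (D δ1 (min_le_left _ _))
  -- integrals
  obtain ⟨K1, K2, K3, K4, K5, K6, K7⟩ := core (κ := k') (D _ le_rfl) hG hGm hGi hcf0 (hf u hl)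
    ((min_le_right _ _).trans (min_le_left _ _)) hcp hWpos hCH0
    (by
      have h1 : min δ1 (min (1 / 2) (cp / (sig0 * CH ^ 2))) ≤ cp / (sig0 * CH ^ 2) :=
        (min_le_right _ _).trans (min_le_right _ _)
      rw [le_div_iff₀ (by positivity)] at h1
      linarith)
    (fun x => hCH u hsol hl x)
  -- lower bound of `I1`
  have hS : 0 ≤ ∑' b : B, Gw lam b ^ 2 := tsum_nonneg fun b => sq_nonneg _
  have hI1 : c1 / 810 * ∑' b : B, Gw lam b ^ 2
      ≤ ∫ x, (1 - χ x) * (Gw lam x ^ 2 * ff u x ^ 3 * qq u x) := by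
    have hF : Continuous fun x => ff u x ^ 3 * qq u x :=
      ((ff_contDiff hsol 0).continuous.pow 3).mul
        (qq_continuous fun m => H147.phi_contDiff hsol hl m)
    have h1 := hGball B hB (fun x => ff u x ^ 3 * qq u x) hF (fun x => (f3q (D _ le_rfl) x).1)
      ⟨1, fun x => (f3q (D _ le_rfl) x).2⟩ c1 hball
    have h3 : ∫ x in {x | ¬ Far B 5 x}, Gw lam x ^ 2 * (ff u x ^ 3 * qq u x)
        ≤ ∫ x, (1 - χ x) * (Gw lam x ^ 2 * ff u x ^ 3 * qq u x) := by
      have h4 : ∫ x in {x | ¬ Far B 5 x}, Gw lam x ^ 2 * (ff u x ^ 3 * qq u x)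
          = ∫ x in {x | ¬ Far B 5 x}, (1 - χ x) * (Gw lam x ^ 2 * ff u x ^ 3 * qq u x) := by
        refine setIntegral_congr_fun (Fct.measurableSet_not_far B 5) fun x hx => ?_
        have h5 : χ x = 0 := hχ0 x fun h => hx (Fct.far_mono h (by linarith))
        simp only [h5]; ring
      rw [h4]
      exact setIntegral_le_integral K6 (Eventually.of_forall K7)
    have h6 : (9 / 10 : ℝ) ≤ Real.exp (-8 * lam) := by
      have := Real.add_one_le_exp (-8 * lam)
      linarith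
    have h7 : c1 / 810 ≤ c1 / 729 * Real.exp (-8 * lam) := by
      calc c1 / 810 = c1 / 729 * (9 / 10) := by ring
        _ ≤ _ := mul_le_mul_of_nonneg_left h6 (by positivity)
    exact (mul_le_mul_of_nonneg_right h7 hS).trans (h1.trans h3)
  -- names
  have hGd : 0 ≤ ∫ x, w (phi u x) * rr u x * gs η x :=
    integral_nonneg fun x => mul_nonneg (PP0 (D _ le_rfl) x)
      (by unfold gs; exact Finset.sum_nonneg fun i _ => sq_nonneg _)
  unfold RHSD Bmis at HI
  change _ ≤ (1 + ε) * sig0 * _ + κ * ∫ x, PP w u x * η x ^ 2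
  change c1 / 10000 * _ + sig0 * (∫ x, iF B (2 * W) x * (PP w u x *
        η x ^ 2 * ((a2 u x - hh u x ^ 2) / 2 + cp / (2 * sig0) * qq u x))) ≤ _
  change Real.sqrt 2 * _ * _ +
    (∫ x, PP w u x * (η x * om x) ^ 2 * (χ x * (cp * qq u x - sig0 * kk u x)))
    ≤ _ + C * (1 / W + e') * (∫ x, PP w u x * (η x * om x) ^ 2 * (qq u x + k' ^ 2))
      + C / W * (_ * (∫ x, iA B (W / 2) (3 * W) x * (PP w u x * qq u x * Gw lam x ^ 2)) + _) + _
    at HI
  generalize (∫ x, iA B (W / 2) (3 * W) x * (PP w u x * qq u x * Gw lam x ^ 2)) = Bm at *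
  generalize (∫ x, PP w u x * (η x * om x) ^ 2 * (qq u x + k' ^ 2)) = J at *
  generalize (∫ x, PP w u x * (η x * om x) ^ 2 * (χ x * (cp * qq u x - sig0 * kk u x))) = I2 at *
  generalize (∫ x, iF B (2 * W) x * (PP w u x *
        η x ^ 2 * ((a2 u x - hh u x ^ 2) / 2 + cp / (2 * sig0) * qq u x))) = L at *
  generalize (∫ x, PP w u x * η x ^ 2) = N at *
  generalize (∫ x, (1 - χ x) * (Gw lam x ^ 2 * ff u x ^ 3 * qq u x)) = I1 at *
  generalize (∫ x, PP w u x * (η x * om x) ^ 2 * qq u x * χ x) = Q at *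
  generalize (∫ x, w (phi u x) * rr u x * gs η x) = Gd at *
  generalize (∑' b : B, Gw lam b ^ 2) = S at *
  generalize (∫ s, w s) = ww at *
  have hI0 : 0 ≤ I1 := le_trans (by positivity) hI1
  have hci : 0 < cf⁻¹ := inv_pos.mpr hcf0
  have hT0 : 0 ≤ Q + cf⁻¹ * I1 := by positivity
  have he0 : 0 < e' := by rw [he']; positivity
  have a0 : 0 ≤ C * (1 / W + e') := by positivity
  have a1 : C * (1 / W + e') ≤ 2 * θ / 3 := by
    have : C * (1 / W + e') = C / W + C * e' := by ring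
    rw [this]; linarith
  have b0 : 0 ≤ C / W * W ^ (1 / 4 : ℝ) := by positivity
  have s1 : C * (1 / W + e') * J ≤ 2 * θ / 3 * (Q + cf⁻¹ * I1) + κ * N := by
    calc C * (1 / W + e') * J ≤ C * (1 / W + e') * (Q + cf⁻¹ * I1 + k' ^ 2 * N) :=
          mul_le_mul_of_nonneg_left K2 a0
      _ = C * (1 / W + e') * (Q + cf⁻¹ * I1) + C * (1 / W + e') * (k' ^ 2 * N) := by ring
      _ ≤ 2 * θ / 3 * (Q + cf⁻¹ * I1) + 1 * (κ * N) := by
          refine add_le_add (mul_le_mul_of_nonneg_right a1 hT0) ?_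
          exact mul_le_mul (by linarith) (mul_le_mul_of_nonneg_right hk3 K5) (by positivity)
            one_pos.le
      _ = _ := by ring
  have s2 : C / W * (W ^ (1 / 4 : ℝ) * Bm + W ^ (-50 : ℝ) * S)
      ≤ θ / 3 * (Q + cf⁻¹ * I1) + c1 / 10000 * S := by
    calc C / W * (W ^ (1 / 4 : ℝ) * Bm + W ^ (-50 : ℝ) * S)
        = C / W * W ^ (1 / 4 : ℝ) * Bm + C / W * W ^ (-50 : ℝ) * S := by ring
      _ ≤ C / W * W ^ (1 / 4 : ℝ) * (Q + cf⁻¹ * I1) + c1 / 10000 * S :=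
          add_le_add (mul_le_mul_of_nonneg_left K3 b0) (mul_le_mul_of_nonneg_right hWc hS)
      _ ≤ _ := by
          have := mul_le_mul_of_nonneg_right hWb hT0
          linarith
  have s3' : (C * lam * W ^ 4 + C * W ^ 4 * Real.exp (-W)) * S ≤ 2 * (c1 / 10000) * S := by
    apply mul_le_mul_of_nonneg_right _ hS
    linarith
  have s4 : θ * (Q + cf⁻¹ * I1) ≤ cp / 4 * Q + 1 / 4 * I1 := by
    have e1 : θ * Q ≤ cp / 4 * Q := mul_le_mul_of_nonneg_right hθ1 K4
    have e2 : θ * cf⁻¹ ≤ 1 / 4 := by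
      calc θ * cf⁻¹ ≤ cf / 4 * cf⁻¹ := mul_le_mul_of_nonneg_right hθ2 hci.le
        _ = 1 / 4 := by field_simp
    have e3 : θ * cf⁻¹ * I1 ≤ 1 / 4 * I1 := mul_le_mul_of_nonneg_right e2 hI0
    calc θ * (Q + cf⁻¹ * I1) = θ * Q + θ * cf⁻¹ * I1 := by ring
      _ ≤ _ := add_le_add e1 e3
  have s5 : I1 ≤ Real.sqrt 2 * ww * I1 := by
    have : 1 ≤ Real.sqrt 2 * ww := by
      calc (1 : ℝ) = 1 * 1 := by ring
        _ ≤ _ := mul_le_mul H147.r2_one_le hw1 one_pos.le (by positivity)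
    calc I1 = 1 * I1 := (one_mul _).symm
      _ ≤ _ := mul_le_mul_of_nonneg_right this hI0
  have s6 : (1 + min ε (1 / 2)) * sig0 * Gd ≤ (1 + ε) * sig0 * Gd := by
    gcongr; exact min_le_left _ _
  have s7 : 0 ≤ c1 * S := by positivity
  linarith

/-- from the fixed-radius inequality `StSD1`. -/
theorem slab_of_sd1 (hGw : StGw) (hCut : StCut) (hCR : StCutR) (hH : StHar1) (h1 : StSD1) :
    StSLAB := slab_of hGw hCut hH (sd2_of hGw hCR hH h1)

end Vale.Agent.P134.H202.SD3
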