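import Vale.Agent.P134.H202.SD3
import Vale.Agent.P134.H586.StGw
import Vale.Agent.P134.H586.Cut
import Vale.Agent.P134.H283.Har3

/-! P134, package R3: `StSLAB` from `StSD1` alone. -/

set_option linter.all false

namespace Vale.Agent.P134.H202

open Vale.Agent.P134 Vale.Agent.P134.LI

/-- `StSD1 → StSLAB`, all other inputs plugged in. -/
theorem stSLAB_of_StSD1 (h1 : StSD1) : StSLAB :=
  SD3.slab_of_sd1 H586.stGw H586.cut H586.cutR H283.stHar1 h1

end Vale.Agent.P134.H202
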